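import Vale.Agent.P096.CS.StrongDefs
import Vale.Agent.P096.Bd8.B20
import Vale.Agent.P096.Bd8.B19
import Vale.Agent.P096.H308.Main
import Vale.Agent.P096.H424.Rep
import Vale.Agent.P096.H424.Lift

open Set Filter Topology

universe u v

namespace Vale.Agent.Results.P096.CommutantDistance

open Vale.Agent.P096.Strong (kkDist ConjWithin)
open Vale.Agent.P096.H424

/-- **The strong Kadison-Kastler conjecture, linear, for `*`-algebras and for paths.**
(1) The strong Kadison-Kastler conjecture. There is an absolute constant `C` such that for all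
Hilbert spaces `H` and all `*`-algebras `A`, `B` of operators on `H` (closed or not, unital or not),
with commutants `A'`, `B'` and double commutants `A''`, `B''`:
(2) if `C d(A, B) ≤ 1`, one unitary `u` with `‖u - 1‖ ≤ C d(A, B)` satisfies `u A' u* = B'` and
`u A'' u* = B''`;
(3) `d(A', B') ≤ C d(A, B)` and `d(A'', B'') ≤ C d(A, B)`, without any smallness assumption;
(4) if `A` is nearly contained in `B` with constant `γ`, then so are the matrices over `A''` in the
matrices over `B''`, and the matrices over `B'` in the matrices over `A'`, with constant `C γ`;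
(5) an operator which commutes with `A` up to `ε` is within `C ε` of an element of `A'`;
(6) representations of a C*-algebra on `H` which are `ε`-close, `C ε ≤ 1`, are conjugate by a
unitary `u` with `‖u - 1‖ ≤ C ε`;
(7) for a path `t ↦ A t`, continuous in `d`, there is a norm-continuous path of unitaries `u t`,
`u 0 = 1`, with `u t (A 0)' (u t)* = (A t)'` and `u t (A 0)'' (u t)* = (A t)''` for all `t`. -/
theorem result :
    (∀ ε : ℝ, 0 < ε → ∃ δ : ℝ, 0 < δ ∧
      ∀ (H : Type u) [NormedAddCommGroup H] [InnerProductSpace ℂ H] [CompleteSpace H]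
        (M N : VonNeumannAlgebra H), kkDist M N < δ → ConjWithin M N ε) ∧
    ∃ C : ℝ, 1 ≤ C ∧
      ∀ (H : Type u) [NormedAddCommGroup H] [InnerProductSpace ℂ H] [CompleteSpace H],
        LinearConjugacy H C ∧ CloseCommutants H C ∧ CompletelyBoundedInclusions H C ∧
          DistanceToCommutant H C ∧ CloseRepresentations.{u, v} H C ∧ PathLifting H := by
  have hS : ∀ ε : ℝ, 0 < ε → ∃ δ : ℝ, 0 < δ ∧
      ∀ (H : Type u) [NormedAddCommGroup H] [InnerProductSpace ℂ H] [CompleteSpace H]
        (M N : VonNeumannAlgebra H), kkDist M N < δ → ConjWithin M N ε := by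
    obtain ⟨C, d, hC, hd, h⟩ := Vale.Agent.P096.CS.finTr.{u}
    exact Vale.Agent.P096.CS.full_of_T3 fun ε hε => Vale.Agent.P096.III.linCS hC hd h hε
  refine ⟨hS, ?_⟩
  obtain ⟨C₀, hC₀, hlin⟩ := Vale.Agent.P096.H308.linear_of_strong hS
  have hK := one_le_KD
  set K : ℝ := (2 * (2 * KD)) ^ 2 with hKd
  have hK2 : 1 ≤ 2 * (2 * KD) := by linarith
  have hKK : 2 * (2 * KD) ≤ K := by rw [hKd, sq]; nlinarith
  have hK1 : 1 ≤ K := hK2.trans hKK
  have hCK : K ≤ C₀ * K := by nlinarith
  have hCK' : 0 ≤ C₀ * K := by linarith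
  have hmono : ∀ {s t : ℝ}, 0 ≤ t → s ≤ K → s * t ≤ (C₀ * K) * t := fun ht hs =>
    mul_le_mul_of_nonneg_right (hs.trans hCK) ht
  refine ⟨C₀ * K, hK1.trans hCK, fun H _ _ _ => ⟨fun A B hAB => ?_, fun A B => ⟨?_, ?_⟩,
    fun A B γ h n => ?_, fun A x ε hε hx => ?_, fun D _ π ρ ε hε hs h => ?_, fun A hA => ?_⟩⟩
  · exact strong_star hC₀ hlin H A B hAB
  · exact (ballDist_comm A B).trans (hmono (ballDist_nonneg _ _) hKK)
  · exact (ballDist_bicomm A B).trans (hmono (ballDist_nonneg _ _) le_rfl)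
  · have hγ : 0 ≤ γ := h.nonneg (zero_mem A)
    refine ⟨(near_bimatrices A B h n).mono ?_, (near_matrices A B h n).mono (hmono hγ ?_)⟩
    · have h1 : 2 * KD * (2 * KD * γ) = (2 * KD) ^ 2 * γ := by ring
      rw [h1]
      refine hmono hγ ?_
      rw [hKd]
      gcongr
      linarith
    · linarith
  · obtain ⟨y, h1, h2⟩ := dist_sub A (NonUnitalStarAlgHom.id ℂ (H →L[ℂ] H)) x hε
      (fun a ha => by
        change ‖a * x - x * a‖ ≤ ε * ‖a‖
        rw [norm_sub_rev]
        exact hx a ha)
    exact ⟨y, fun a ha => h1 a ha, h2.trans (hmono hε (by linarith))⟩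
  · have h1 : 2 * KD * ε ≤ (C₀ * K) * ε := hmono hε (by linarith)
    obtain ⟨u, hu, hu1, hu2⟩ := close_reps π ρ hε h (h1.trans hs)
    exact ⟨u, hu, hu1.trans h1, hu2⟩
  · have hM : ∀ s, Tendsto (fun t => kkDist (vn (A s)) (vn (A t))) (𝓝 s) (𝓝 0) := by
      intro s
      have h1 : Tendsto (fun t => K * ballDist (A s : Set (H →L[ℂ] H)) (A t)) (𝓝 s) (𝓝 0) := by
        have := (hA s).const_mul K
        rwa [mul_zero] at this
      refine squeeze_zero (fun t => Vale.Agent.P096.H308.kkDist_nonneg _ _) (fun t => ?_) h1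
      rw [kkDist_eq, coe_vn, coe_vn]
      exact ballDist_bicomm (A s) (A t)
    obtain ⟨u, hu, hu0, hex⟩ := path_lift hC₀ (C := C₀) (fun M N hMN => by
      obtain ⟨u, hu, hu1, hu2⟩ := hlin H M N hMN
      exact ⟨u, ⟨hu, hu2⟩, hu1⟩) (fun t => vn (A t)) hM
    refine ⟨u, hu, hu0, fun t => ?_⟩
    obtain ⟨h1, h2⟩ := hex t
    rw [coe_vn, coe_vn] at h2
    have h3 : Conjugates (u t) (centralizer (centralizer (A 0 : Set (H →L[ℂ] H))))
        (centralizer (centralizer (A t : Set (H →L[ℂ] H)))) := h2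
    have h4 := h3.comm h1
    rw [Set.centralizer_centralizer_centralizer, Set.centralizer_centralizer_centralizer] at h4
    exact ⟨h1, h4, h3⟩

end Vale.Agent.Results.P096.CommutantDistance
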