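import Vale.Agent.P096.CS.StrongDefs
import Vale.Agent.P096.Bd8.B20
import Vale.Agent.P096.Bd8.B19
import Vale.Agent.P096.H308.Main

universe u

namespace Vale.Agent.Results.P096.LinearKadisonKastler

open Vale.Agent.P096.Strong (kkDist ConjWithin)

/-- **The strong Kadison-Kastler conjecture, with a linear estimate.**
(1) For every `ε > 0` there is `δ > 0` such that for every Hilbert space `H` and all von Neumann
algebras `M`, `N` on `H` with `d(M, N) < δ` there is a unitary `u` on `H` with `u M u* = N` and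
`‖u - 1‖ < ε`.
(2) There is an absolute constant `C` such that for every Hilbert space `H` and all von Neumann
algebras `M`, `N` on `H` with `C d(M, N) ≤ 1` there is a unitary `u` on `H` with `u M u* = N` and
`‖u - 1‖ ≤ C d(M, N)`. -/
theorem result :
    (∀ ε : ℝ, 0 < ε → ∃ δ : ℝ, 0 < δ ∧
      ∀ (H : Type u) [NormedAddCommGroup H] [InnerProductSpace ℂ H] [CompleteSpace H]
        (M N : VonNeumannAlgebra H), kkDist M N < δ → ConjWithin M N ε) ∧
    (∃ C : ℝ, 1 ≤ C ∧
      ∀ (H : Type u) [NormedAddCommGroup H] [InnerProductSpace ℂ H] [CompleteSpace H]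
        (M N : VonNeumannAlgebra H), C * kkDist M N ≤ 1 →
        ∃ u ∈ unitary (H →L[ℂ] H), ‖u - 1‖ ≤ C * kkDist M N ∧
          (fun x => u * x * star u) '' (M : Set (H →L[ℂ] H)) = (N : Set (H →L[ℂ] H))) := by
  have hS : ∀ ε : ℝ, 0 < ε → ∃ δ : ℝ, 0 < δ ∧
      ∀ (H : Type u) [NormedAddCommGroup H] [InnerProductSpace ℂ H] [CompleteSpace H]
        (M N : VonNeumannAlgebra H), kkDist M N < δ → ConjWithin M N ε := by
    obtain ⟨C, d, hC, hd, h⟩ := Vale.Agent.P096.CS.finTr.{u}
    exact Vale.Agent.P096.CS.full_of_T3 fun ε hε => Vale.Agent.P096.III.linCS hC hd h hε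
  exact ⟨hS, Vale.Agent.P096.H308.linear_of_strong hS⟩

end Vale.Agent.Results.P096.LinearKadisonKastler
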